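import Vale.Agent.P269CZ.Hk
import Vale.Agent.P269CF.AeGen

/-!
# P269, block C, rows YF and YG: the forms `Y` on the universal curve
-/

noncomputable section

namespace Vale.Agent.P269CZ

open Set Filter MeasureTheory MvPolynomial Vale.Agent.P273.H183 Vale.Agent.P272.K Vale.Agent.P269C
open Vale.Agent.P269CD
open Vale.Agent.P269CT (pt mk Gen HolAt H π_mk π_s)
open Vale.Agent.P269CM (two_le dr_refl psi_eq)
open Vale.Agent.P269CI (hol_coord an_of_hol p_an tr_an tr_src)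
open Vale.Agent.P269CK (k1)
open Vale.Agent.P269CV (k2 ev_fib)
open scoped Topology ContDiff Matrix Classical

variable {L : Type} {D : ℕ} {h : Hm (Option L)} {C : Fam L D} (c : Ch C) {y : Cm (D + 1)}
  {o : Option L} {i : L}

theorem ch_hol (hy : y ∈ c.e.target) : HolAt C c.e.symm y :=
  ⟨c.e.continuousAt_symm hy, fun _ hf => an_of_hol c.hol hy hf⟩

theorem ch_nae [Finite L] (hK : Kur C) (hy : y ∈ c.e.target) :
    ∀ᶠ x in nae y, Gen C (c.e.symm x) ∧ Sm C (C.π (c.e.symm x)) :=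
  Eventually.mp (mem_inf_of_left (c.e.open_target.mem_nhds hy))
    (mem_inf_of_right (P269CF.nulx L D C hK c.e c.hol))

theorem Dat.ex [Finite L] {v : Cm (D + 1) → ℝ} (hd : Dat h C c.e.symm o y v) (hh : IsPsi h)
    (hK : Kur C) (hy : y ∈ c.e.target) : Ex (gf h C c.e.symm o) y fun x => Real.log (v x) :=
  ⟨hd.1.log hd.2.1.ne', nae_of (hd.loc hh hK.1 (ch_hol c hy)) (ch_nae c hK hy)⟩

theorem yf_gen [Finite L] (t2 : T2) (hh : IsPsi h) (hK : Kur C) (o : Option L)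
    (hy : y ∈ c.e.target) : Gd y (ex (gf h C c.e.symm o)) ∧
      (Gen C (c.e.symm y) → Sm C (c.p y) → ex (gf h C c.e.symm o) y = gf h C c.e.symm o y) := by
  refine ⟨ex_gd ?_, fun h1 h2 => ?_⟩
  · filter_upwards [c.e.open_target.mem_nhds hy] with x hx
    obtain ⟨v, hv⟩ := ex_dat t2 hh hK.1 (ch_hol c hx) o
    exact ⟨_, hv.ex c hh hK hx⟩
  · obtain ⟨v, hv⟩ := ex_dat t2 hh hK.1 (ch_hol c hy) o
    rw [ex_eq (hv.ex c hh hK hy), (hv.loc hh hK.1 (ch_hol c hy)).self_of_nhds ⟨h1, h2⟩]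

/-! ### adapted charts -/

theorem z_symm (hy : y ∈ c.e.target) : c.z (c.e.symm y) = y (Fin.last D) := by
  rw [Ch.z, c.e.right_inv hy]

theorem z_co (hi : c.ad = some i) {q : C.X} (hq : q ∈ c.e.source) :
    C.hol c.z q ∧ Co C c.z q := by
  have h1 : C.hol c.z q := hol_coord c.hol hq _
  refine ⟨h1, ⟨_, h1, EventuallyEq.rfl⟩, {r | r ∈ c.e.source ∧ C.π r = C.π q},
    Eventually.and (mem_nhdsWithin_of_mem_nhds (c.e.open_source.mem_nhds hq)) ev_fib,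
    fun a ha b hb e => c.e.injOn ha.1 hb.1 ?_⟩
  have h2 : pr (c.e a) = pr (c.e b) := by
    rw [(c.on i hi a ha.1).1, (c.on i hi b hb.1).1, ha.2, hb.2]
  funext l
  exact Fin.lastCases e (fun l => congrFun h2 l) l

theorem z_s (hi : c.ad = some i) {q : C.X} (hq : q ∈ c.e.source) : c.z (C.s i (C.π q)) = 0 := by
  rw [Ch.z, (c.on i hi q hq).2.2, sl, Fin.snoc_last]

theorem last_ne (hi : c.ad = some i) (hy : y ∈ c.e.target)
    (h1 : C.s i (C.π (c.e.symm y)) ≠ c.e.symm y) : y (Fin.last D) ≠ 0 := fun h0 => h1 <| by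
  obtain ⟨a1, a2, a3⟩ := c.on i hi _ (c.e.map_target hy)
  refine c.e.injOn a2 (c.e.map_target hy) ?_
  rw [a3, ← a1, c.e.right_inv hy]
  funext l
  refine Fin.lastCases ?_ (fun l => ?_) l
  · rw [sl, Fin.snoc_last, h0]
  · rw [sl, Fin.snoc_castSucc]
    rfl

theorem an_last (y : Cm (D + 1)) : AnalyticAt ℂ (fun x : Cm (D + 1) => x (Fin.last D)) y :=
  (ContinuousLinearMap.proj (R := ℂ) (φ := fun _ : Fin (D + 1) => ℂ) (Fin.last D)).analyticAt y

theorem mk_src (hi : c.ad = some i) (ho : o = none ∨ o = some i) {q : C.X}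
    (hq : q ∈ c.e.source) : mk C q o ∈ c.e.source := by
  rcases ho with rfl | rfl
  exacts [hq, (c.on i hi q hq).2.1]

/-- The metric in an adapted chart vanishes to order two along the section. -/
theorem loc_b [Finite L] (t2 : T2) (hh : IsPsi h) (hC : C.IsStable) (hi : c.ad = some i)
    (ho : o = none ∨ o = some i) (hy : y ∈ c.e.target) : ∃ v : Cm (D + 1) → ℝ,
      ContDiffAt ℝ ∞ v y ∧ 0 < v y ∧ ∀ᶠ x in 𝓝 y, Gen C (c.e.symm x) →
        H h C (c.e.symm x) o c.z = v x * ‖x (Fin.last D)‖ ^ 2 := by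
  have hs := ch_hol c hy
  have hq := c.e.map_target hy
  by_cases h0 : c.e.symm y = C.s i (C.π (c.e.symm y))
  · obtain ⟨v, h1, h2, h3⟩ := t2.on hh hC (hs.ev hC) i c.z h0 (z_co c hi hq).1 (z_co c hi hq).2 o ho
    refine ⟨v, h1, h2, ?_⟩
    filter_upwards [h3, c.e.open_target.mem_nhds hy] with x a1 a2 a3
    rw [a1 a3, z_s c hi (c.e.map_target a2), z_symm c a2, sub_zero]
  · have hg : Gen C (c.e.symm y) := ⟨⟨_, (z_co c hi hq).2⟩, fun j e => by
      by_cases hj : c.ad = some j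
      · obtain rfl : i = j := Option.some.inj (hi.symm.trans hj)
        exact h0 e.symm
      · exact c.off j hj _ hq e.symm⟩
    obtain ⟨h1, h2⟩ := H_gen hh hC hs hg (z_co c hi (mk_src c hi ho hq)).1
      (z_co c hi (mk_src c hi ho hq)).2
    have h3 := last_ne c hi hy (Ne.symm h0)
    refine ⟨fun x => H h C (c.e.symm x) o c.z / ‖x (Fin.last D)‖ ^ 2,
      h1.div (cd_nsq (an_last y)) (nsq_ne h3), div_pos h2 (by positivity), ?_⟩
    filter_upwards [(an_last y).continuousAt.eventually_ne h3] with x a1 _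
    rw [div_mul_cancel₀ _ (nsq_ne a1)]

theorem dat_of [Finite L] (hC : C.IsStable) (hy : y ∈ c.e.target) {z : C.X → ℂ}
    {v : Cm (D + 1) → ℝ} {e : Cm (D + 1) → ℂ} (h1 : C.hol z (mk C (c.e.symm y) o))
    (h2 : Co C z (mk C (c.e.symm y) o)) (h3 : ContDiffAt ℝ ∞ v y) (h4 : 0 < v y)
    (h5 : AnalyticAt ℂ e y) (h6 : ∀ x ∈ c.e.target, Gen C (c.e.symm x) → e x ≠ 0)
    (h7 : ∀ᶠ x in 𝓝 y, Gen C (c.e.symm x) → H h C (c.e.symm x) o z = v x * ‖e x‖ ^ 2) :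
    Dat h C c.e.symm o y v := by
  refine ⟨h3, h4, z, e, h5, ?_⟩
  filter_upwards [ev_co hC (ch_hol c hy) h1 h2, c.e.open_target.mem_nhds hy, h7]
    with x a1 a2 a3 a4 _
  exact ⟨a1.1, a1.2, h6 x a2 a4, a3 a4⟩

theorem yf_bub [Finite L] (t2 : T2) (hh : IsPsi h) (hK : Kur C) (hi : c.ad = some i)
    (ho : o = none ∨ o = some i) : ∃ v : Cm (D + 1) → ℝ,
      ∀ y ∈ c.e.target, ContDiffAt ℝ ∞ v y ∧ ex (gf h C c.e.symm o) y = -dd v y ∧
      (Gen C (c.e.symm y) → H h C (c.e.symm y) o c.z = ‖y (Fin.last D)‖ ^ 2 * Real.exp (v y)) := by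
  refine ⟨lm fun x => Real.log (H h C (c.e.symm x) o c.z / ‖x (Fin.last D)‖ ^ 2), fun y hy => ?_⟩
  obtain ⟨v, h1, h2, h3⟩ := loc_b c t2 hh hK.1 hi ho hy
  have hz := z_co c hi (mk_src c hi ho (c.e.map_target hy))
  have hd := dat_of c hK.1 hy hz.1 hz.2 h1 h2 (an_last y)
    (fun x hx hg => last_ne c hi hx (hg.2 i)) h3
  have e := lm_eq (R := fun x => Real.log (H h C (c.e.symm x) o c.z / ‖x (Fin.last D)‖ ^ 2))
    (h1.log h2.ne') (nae_of (by
      filter_upwards [h3, c.e.open_target.mem_nhds hy] with x a1 a2 a3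
      rw [a1 a3.1, mul_div_cancel_right₀ _ (nsq_ne (last_ne c hi a2 (a3.1.2 i)))])
      (ch_nae c hK hy))
  refine ⟨(h1.log h2.ne').congr_of_eventuallyEq e, ?_, fun hg => ?_⟩
  · rw [ex_eq (hd.ex c hh hK hy), chn.ddc _ _ y e]
  · rw [e.self_of_nhds, Real.exp_log h2, h3.self_of_nhds hg, mul_comm]

/-- The equation of the section in a chart. -/
def ep (i : L) (y : Cm (D + 1)) : ℂ := if c.ad = some i then y (Fin.last D) else 1

theorem ep_an (y : Cm (D + 1)) : AnalyticAt ℂ (ep c i) y := by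
  unfold ep
  split_ifs
  exacts [an_last y, analyticAt_const]

theorem ep_ne (hy : y ∈ c.e.target) (hg : Gen C (c.e.symm y)) : ep c i y ≠ 0 := by
  unfold ep
  split_ifs with hi
  exacts [last_ne c hi hy (hg.2 i), one_ne_zero]

theorem ep_sq : ‖ep c i y‖ ^ 2 = if c.ad = some i then ‖y (Fin.last D)‖ ^ 2 else 1 := by
  unfold ep
  split_ifs <;> simp

theorem loc_a [Finite L] (t2 : T2) (hh : IsPsi h) (hC : C.IsStable) (i : L) (hy : y ∈ c.e.target) :
    ∃ (z : C.X → ℂ) (v : Cm (D + 1) → ℝ), C.hol z (C.s i (c.p y)) ∧ Co C z (C.s i (c.p y)) ∧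
      ContDiffAt ℝ ∞ v y ∧ 0 < v y ∧ ∀ᶠ x in 𝓝 y, Gen C (c.e.symm x) →
        H h C (c.e.symm x) (some i) z = v x * ‖ep c i x‖ ^ 2 := by
  by_cases hi : c.ad = some i
  · obtain ⟨v, h1, h2, h3⟩ := loc_b c t2 hh hC hi (Or.inr rfl) hy
    have hz := z_co c hi (c.on i hi _ (c.e.map_target hy)).2.1
    exact ⟨c.z, v, hz.1, hz.2, h1, h2, by simpa only [ep, if_pos hi] using h3⟩
  · obtain ⟨k3, k4⟩ := cz_spec hC (P269CT.sp_s hC (hC.2.2.1 (c.e.symm y)) i)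
    obtain ⟨v, h1, h2, h3⟩ := t2.off hh hC ((ch_hol c hy).ev hC) i _
      (c.off i hi _ (c.e.map_target hy)) k3 k4
    exact ⟨_, v, k3, k4, h1, h2, by simpa only [ep, if_neg hi, norm_one, one_pow, mul_one] using h3⟩

theorem yf_rat [Finite L] (t2 : T2) {h' : Hm L} (hh : IsPsi h) (hh' : IsPsi h') (hK : Kur C)
    (i : L) : ∃ v : Cm (D + 1) → ℝ, ∀ y ∈ c.e.target, ContDiffAt ℝ ∞ v y ∧
      ex (gf h C c.e.symm (some i)) y = pb (jac c.p y) (psi h' C (c.p y) i) - dd v y ∧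
      (Gen C (c.e.symm y) → rat h h' C i (c.e.symm y) =
        (if c.ad = some i then ‖y (Fin.last D)‖ ^ 2 else 1) * Real.exp (v y)) := by
  refine ⟨lm fun x => Real.log (rat h h' C i (c.e.symm x) / ‖ep c i x‖ ^ 2), fun y hy => ?_⟩
  have hC := hK.1
  obtain ⟨z, v, z1, z2, h1, h2, h3⟩ := loc_a c t2 hh hC i hy
  have hd := dat_of (o := some i) c hC hy z1 z2 h1 h2 (ep_an c y) (fun x => ep_ne c) h3
  have hb : c.p y ∈ C.B := hC.2.2.1 _
  obtain ⟨p1, p2⟩ := hh'.2 D C hC _ hb i z z1 z2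
  have p3 : ContDiffAt ℝ ∞ (fun x => h' D C (c.p x) i z) y := cd_cp p2 (p_an hC c hy)
  have u1 : ContDiffAt ℝ ∞ (fun x => Real.log (v x) - Real.log (h' D C (c.p x) i z)) y :=
    (h1.log h2.ne').sub (p3.log p1.ne')
  have h4 : ∀ᶠ x in 𝓝 y, Gen C (c.e.symm x) → rat h h' C i (c.e.symm x) =
      ‖ep c i x‖ ^ 2 * Real.exp (Real.log (v x) - Real.log (h' D C (c.p x) i z)) := by
    filter_upwards [h3, ev_co (o := some i) hC (ch_hol c hy) z1 z2,
      h1.continuousAt.eventually (lt_mem_nhds h2), p3.continuousAt.eventually (lt_mem_nhds p1)]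
      with x a1 a2 a3 a4 a5
    rw [rat_eq (Φ := id) (p := c.e.symm x) hh hh' hC hC (k1.refl C _) i a2.2, Real.exp_sub, Real.exp_log a3,
      Real.exp_log a4, id, a1 a5, Ch.p]
    ring
  have e := lm_eq (R := fun x => Real.log (rat h h' C i (c.e.symm x) / ‖ep c i x‖ ^ 2)) u1
    (nae_of (by
      filter_upwards [h4, c.e.open_target.mem_nhds hy] with x a1 a2 a3
      rw [a1 a3.1, mul_div_cancel_left₀ _ (nsq_ne (ep_ne c a2 a3.1)), Real.log_exp])
      (ch_nae c hK hy))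
  refine ⟨u1.congr_of_eventuallyEq e, ?_, fun hg => ?_⟩
  · rw [ex_eq (hd.ex c hh hK hy), chn.ddc _ _ y e, (chn.dda _ _ y
      ((h1.log h2.ne').of_le two_le) ((p3.log p1.ne').of_le two_le)).2,
      psi_eq chn k1 k2 hh' hC hb i z z1 z2, map_neg,
      ← chn.ddn c.p y _ (p_an hC c hy) ((p2.log p1.ne').of_le two_le)]
    ring
  · rw [e.self_of_nhds, h4.self_of_nhds hg, ep_sq]

/-- **row YF** -/
theorem yf (t2 : T2) : YF where
  gen c hh hK o _ hy := yf_gen c t2 hh hK o hy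
  rat c hh hh' hK i := yf_rat c t2 hh hh' hK i
  bub c hh hK _ hi _ ho := yf_bub c t2 hh hK hi ho
  nat hh hh' hC hC' _ hΦ i p hp := by
    obtain rfl : _ = _ := hp
    exact rat_eq hh hh' hC hC' hΦ i (cz_spec hC' (P269CT.sp_s hC' (hC'.2.2.1 _) i)).2

/-- **row YG** -/
theorem yg (t2 : T2) : YG := by
  intro L _ g D A U h hh o
  refine ⟨fun j y hy => (yf_gen _ t2 hh (A.kur _) o hy).1, fun j j' φ Φ y hy hm hs => ?_⟩
  simp only [UC.Y]
  have hK := A.kur j.1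
  have hK' := A.kur j'.1
  generalize U.c j = c at hy hm hs ⊢
  generalize U.c j' = c' at hs ⊢
  have hy' : c.tr c' Φ y ∈ c'.e.target := c'.e.map_source hs
  have ha := tr_an c c' hy hm.self_of_nhds hs
  obtain ⟨v, hv⟩ := ex_dat t2 hh hK'.1 (ch_hol c' hy') o
  have hl := hv.1.log hv.2.1.ne'
  rw [ex_eq (hv.ex c' hh hK' hy'), map_neg, ← chn.ddn _ y _ ha (hl.of_le two_le)]
  obtain ⟨h1, h2, z, e, h3, h4⟩ := hv
  refine ex_eq (Dat.ex c (v := fun x => v (c.tr c' Φ x)) ⟨cd_cp h1 ha, h2, fun q => z (Φ q),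
    fun x => e (c.tr c' Φ x), h3.comp ha, ?_⟩ hh hK hy)
  filter_upwards [ha.continuousAt.eventually h4, tr_src c c' hy hm.self_of_nhds hs,
    (p_an hK.1 c hy).continuousAt.eventually hm] with x a1 a2 a3 a4 a5
  have hΦ := a3.2.2.1
  rw [Ch.tr, c'.e.left_inv a2] at a1
  obtain ⟨b1, b2, b3, b4⟩ := a1 (is_gen hK.1 hK'.1 hΦ a4)
    (by rw [is_π hΦ]; exact is_sm hK.1 hK'.1 hΦ a5)
  have b5 := is_co hK.1 hK'.1 hΦ b2
  refine ⟨(a3.2.2.2 _ (π_mk hK.1 _ o)).2 z (by rwa [is_mk hK.1 hΦ]), b5, b3, ?_⟩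
  rw [H_nat hh hK.1 hΦ b5 b2 (dr_refl _ _), norm_one, one_pow, one_mul, b4]
  rfl

end Vale.Agent.P269CZ
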