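import Vale.Agent.P269CI.Bas
import Vale.Agent.P269C.Chn
import Vale.Agent.P269CM.Psi

/-!
# P269, block C: the extension of generic forms and functions
-/

noncomputable section

namespace Vale.Agent.P269CZ

open Set Filter MeasureTheory MvPolynomial Vale.Agent.P272.K Vale.Agent.P269C Vale.Agent.P269CD
open Vale.Agent.P269CI (nae_neBot eq_of_nae)
open Vale.Agent.P269CM (two_le)
open scoped Topology ContDiff Matrix

variable {k : ℕ} {y : Cm k} {f : Cm k → Po k} {u v : Cm k → ℝ}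

theorem nae_ev {P : Cm k → Prop} (h : ∀ᶠ x in nae y, P x) : ∀ᶠ a in 𝓝 y, ∀ᶠ x in nae a, P x := by
  obtain ⟨s, hs, t, ht, e⟩ := mem_inf_iff.1 h
  filter_upwards [eventually_eventually_nhds.2 hs] with a ha
  exact mem_inf_iff.2 ⟨s, ha, t, ht, e⟩

theorem nae_of {P Q : Cm k → Prop} (h : ∀ᶠ x in 𝓝 y, P x → Q x) (h' : ∀ᶠ x in nae y, P x) :
    ∀ᶠ x in nae y, Q x := h'.mp (mem_inf_of_left h)

theorem ev_two (h : ContDiffAt ℝ ∞ v y) : ∀ᶠ x in 𝓝 y, ContDiffAt ℝ 2 v x :=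
  (h.of_le two_le).eventually (by simp)

theorem ct_dd (h : ContDiffAt ℝ 2 v y) (n : (Fin k × Fin k) →₀ ℕ) :
    ContinuousAt (fun x => coeff n (dd v x)) y := by
  simp only [dd, Fm, coeff_sum, coeff_C_mul]
  exact tendsto_finsetSum _ fun i _ => tendsto_finsetSum _ fun j _ =>
    (C2.contDiffAt_cHess (m := 0) h (by norm_num) i j).continuousAt.mul continuousAt_const

theorem dd_eq (hu : ContDiffAt ℝ 2 u y) (hv : ContDiffAt ℝ 2 v y)
    (e : ∀ᶠ x in nae y, dd u x = dd v x) : dd u y = dd v y := by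
  ext n
  exact eq_of_nae (ct_dd hu n) (ct_dd hv n) (e.mono fun x hx => by rw [hx])

theorem ex_eq' (h : ∃ u, Ex f y u) (hv : ContDiffAt ℝ 2 v y) (e : ∀ᶠ x in nae y, f x = -dd v x) :
    ex f y = -dd v y := by
  have h0 : Ex f y (Classical.epsilon (Ex f y)) := Classical.epsilon_spec h
  rw [ex]
  generalize Classical.epsilon (Ex f y) = w at h0 ⊢
  rw [dd_eq (h0.1.of_le two_le) hv]
  filter_upwards [h0.2, e] with x a b
  exact neg_inj.1 (a.symm.trans b)

theorem ex_eq (h : Ex f y v) : ex f y = -dd v y := ex_eq' ⟨v, h⟩ (h.1.of_le two_le) h.2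

theorem gd_dd (h : ContDiffAt ℝ ∞ v y) : Gd y fun x => -dd v x := by
  refine (Gd.ch 1 1 (fun x => !![(Real.exp (v x) : ℂ)]) (mc_line h.exp) (by simp)).congr ?_
  filter_upwards [ev_two h] with x hx
  rw [dd_exp hx, neg_neg]

theorem ex_gd (h : ∀ᶠ x in 𝓝 y, ∃ u, Ex f x u) : Gd y (ex f) := by
  obtain ⟨v, h1, h2⟩ := h.self_of_nhds
  refine (gd_dd h1).congr ?_
  filter_upwards [h, ev_two h1, nae_ev h2] with x a b c
  exact ex_eq' a b c

/-- The extension of a function defined almost everywhere. -/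
def lm (R : Cm k → ℝ) (y : Cm k) : ℝ := limUnder (nae y) R

theorem lm_eq {R : Cm k → ℝ} (h : ContDiffAt ℝ ∞ u y) (e : ∀ᶠ x in nae y, R x = u x) :
    lm R =ᶠ[𝓝 y] u := by
  filter_upwards [ev_two h, nae_ev e] with x a b
  have := nae_neBot x
  exact ((a.continuousAt.tendsto.mono_left inf_le_left).congr' (b.mono fun _ h => h.symm)).limUnder_eq

end Vale.Agent.P269CZ
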