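import Vale.Agent.P269CZ.Ext
import Vale.Agent.P269CT.Sec
import Vale.Agent.P269CK.Iso
import Vale.Agent.P269CV.K2

/-!
# P269, block C: the metrics on the total space, change of coordinates and isomorphisms
-/

noncomputable section

namespace Vale.Agent.P269CZ

open Set Filter MeasureTheory MvPolynomial Vale.Agent.P273.H183 Vale.Agent.P272.K Vale.Agent.P269C
open Vale.Agent.P269CD
open Vale.Agent.P269CT (pt mk Gen HolAt H π_mk π_s gen_iff isOpen_gen add add_stable add_s add_is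
  add_mor_fg ex_co)
open Vale.Agent.P269CM (two_le dr_refl)
open Vale.Agent.P269CK (k1)
open Vale.Agent.P269CV (k2 dr_ne dr_exists)
open scoped Topology ContDiff Matrix

variable {L : Type} {m m' k : ℕ} {h : Hm (Option L)} {C : Fam L m} {C' : Fam L m'}
  {Φ : C.X → C'.X} {p : C.X} {σ : Cm k → C.X} {y : Cm k} {b' : Cm m'} {o : Option L}

theorem is_π (hΦ : Is C (C.π p) C' b' Φ) : C'.π (Φ p) = b' := (k1.mem hΦ).mapsTo rfl

theorem is_mk (hC : C.IsStable) (hΦ : Is C (C.π p) C' b' Φ) (o : Option L) :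
    Φ (mk C p o) = mk C' (Φ p) o := by
  cases o with
  | none => rfl
  | some i =>
    rw [P269CT.mk_some, P269CT.mk_some, is_π hΦ]
    exact (k1.fg.1 hΦ).2 i (π_s hC (hC.2.2.1 p) i)

theorem is_pt (hC : C.IsStable) (hΦ : Is C (C.π p) C' b' Φ) :
    Is (pt C p) (C.π p) (pt C' (Φ p)) (C'.π (Φ p)) Φ := by
  refine k1.fg.2 ⟨?_, fun o _ => is_mk hC hΦ o⟩
  rw [is_π hΦ]
  exact (k1.fg.1 hΦ).1

theorem H_nat (hh : IsPsi h) (hC : C.IsStable) (hΦ : Is C (C.π p) C' b' Φ) {z : C.X → ℂ}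
    {z' : C'.X → ℂ} {c : ℂ} (h1 : Co C z (mk C p o)) (h2 : Co C' z' (mk C' (Φ p) o))
    (h3 : Dr C z (fun q => z' (Φ q)) (mk C p o) c) :
    H h C p o z = ‖c‖ ^ 2 * H h C' (Φ p) o z' :=
  hh.1 m m' (pt C p) (pt C' (Φ p)) _ _ _ (is_pt hC hΦ) o z (fun q => z' (Φ q)) z' c (π_mk hC p)
    h1 h2 (fun _ => rfl) h3

theorem H_fr (hh : IsPsi h) (hC : C.IsStable) {z w : C.X → ℂ} {c : ℂ} (h1 : Co C w (mk C p o))
    (h2 : Co C z (mk C p o)) (h3 : Dr C w z (mk C p o) c) :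
    H h C p o w = ‖c‖ ^ 2 * H h C p o z := H_nat (Φ := id) hh hC (k1.refl C _) h1 h2 h3

theorem is_co (hC : C.IsStable) (hC' : C'.IsStable) (hΦ : Is C (C.π p) C' b' Φ) {z : C'.X → ℂ}
    (h1 : Co C' z (mk C' (Φ p) o)) : Co C (fun q => z (Φ q)) (mk C p o) :=
  ((k1.nf hC hC' (k1.fg.1 hΦ).1 _ (π_mk hC p o)).2.2.1 z).1 (by rwa [is_mk hC hΦ])

theorem is_gen (hC : C.IsStable) (hC' : C'.IsStable) (hΦ : Is C (C.π p) C' b' Φ) (h1 : Gen C p) :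
    Gen C' (Φ p) := by
  refine (gen_iff hC').2 ⟨(k1.nf hC hC' (k1.fg.1 hΦ).1 p rfl).2.2.2.2.2 h1.sp, fun i e => ?_⟩
  exact h1.2 i ((k1.mem hΦ).injOn (π_mk hC p (some i)) rfl ((is_mk hC hΦ (some i)).trans e))

theorem is_sm (hC : C.IsStable) (hC' : C'.IsStable) {b : Cm m} (hΦ : Is C b C' b' Φ)
    (h1 : Sm C b) : Sm C' b' := fun q hq => by
  obtain ⟨p, hp, rfl⟩ := (k1.mem hΦ).surjOn hq
  exact (k1.nf hC hC' (k1.fg.1 hΦ).1 p hp).2.2.2.2.2 (h1 p hp)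

theorem cz_spec (hC : C.IsStable) {q : C.X} (h1 : Sp C q) :
    C.hol (cz C q) q ∧ Co C (cz C q) q := Classical.epsilon_spec (ex_co hC h1)

theorem ev_gen [Finite L] (hC : C.IsStable) (hs : HolAt C σ y) (h1 : Gen C (σ y)) :
    ∀ᶠ x in 𝓝 y, Gen C (σ x) := hs.1.eventually ((isOpen_gen hC).mem_nhds h1)

theorem ev_sm (hC : C.IsStable) (hs : HolAt C σ y) (h1 : Sm C (C.π (σ y))) :
    ∀ᶠ x in 𝓝 y, Sm C (C.π (σ x)) :=
  ((hs.π hC).continuousAt.eventually ((k2.smo hC).mem_nhds ⟨hC.2.2.1 _, h1⟩)).mono fun _ h => h.2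

theorem ev_co (hC : C.IsStable) (hs : HolAt C σ y) {z : C.X → ℂ} (h1 : C.hol z (mk C (σ y) o))
    (h2 : Co C z (mk C (σ y) o)) : ∀ᶠ x in 𝓝 y, C.hol z (mk C (σ x) o) ∧ Co C z (mk C (σ x) o) :=
  (hs.mk hC o).1.eventually (k2.ev hC h1 h2)

/-- The metric is smooth and positive at generic points. -/
theorem H_gen [Finite L] (hh : IsPsi h) (hC : C.IsStable) (hs : HolAt C σ y) (hg : Gen C (σ y))
    {z : C.X → ℂ} (h1 : C.hol z (mk C (σ y) o)) (h2 : Co C z (mk C (σ y) o)) :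
    ContDiffAt ℝ ∞ (fun x => H h C (σ x) o z) y ∧ 0 < H h C (σ y) o z := by
  obtain ⟨W, hW, hWo, hy⟩ := eventually_nhds_iff.1
    ((hs.ev hC).and ((ev_gen hC hs hg).and (ev_co hC hs h1 h2)))
  have hne : W.Nonempty := ⟨y, hy⟩
  have hE := add_stable hC hWo hne fun x hx => ⟨(hW x hx).1, (hW x hx).2.1⟩
  have hσ : ∀ x ∈ W, HolAt C σ x := fun x hx => (hW x hx).1
  have e : ∀ x ∈ W, ((add C W σ hne).s o x).1.2 = mk C (σ x) o := fun x hx =>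
    congrArg Prod.snd (add_s hC hne hx o)
  have hc : ∀ x ∈ W, Co (add C W σ hne) (fun q => z q.1.2) ((add C W σ hne).s o x) := fun x hx =>
    ((k1.nf hE hC (add_mor_fg hC hWo hne hσ hx).2.2.1 _ (π_s hE hx o)).2.2.1 z).1
      (by rw [e x hx]; exact (hW x hx).2.2.2)
  have hq : ∀ x ∈ W, h k (add C W σ hne) x o (fun q => z q.1.2) = H h C (σ x) o z := fun x hx => by
    rw [hh.1 k m _ (pt C (σ x)) x _ _ (add_is hC hWo hne hσ hx) o _ (fun q => z q.1.2) z 1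
      (π_s hE hx) (hc x hx) (hW x hx).2.2.2 (fun _ => rfl) (dr_refl _ _), norm_one, one_pow,
      one_mul, H]
  have h4 : C.hol z ((add C W σ hne).s o y).1.2 := by rw [e y hy]; exact h1
  have h3 := hh.2 k _ hE y hy o (fun q => z q.1.2)
    (((add_mor_fg hC hWo hne hσ hy).2.2.2 _ (π_s hE hy o)).2 z h4) (hc y hy)
  refine ⟨h3.2.congr_of_eventuallyEq ?_, hq y hy ▸ h3.1⟩
  filter_upwards [hWo.mem_nhds hy] with x hx
  exact (hq x hx).symm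

theorem cd_nsq {e : Cm k → ℂ} (he : AnalyticAt ℂ e y) {n : WithTop ℕ∞} :
    ContDiffAt ℝ n (fun x => ‖e x‖ ^ 2) y := (he.contDiffAt.restrict_scalars ℝ).norm_sq ℝ

theorem nsq_ne {c : ℂ} (h : c ≠ 0) : ‖c‖ ^ 2 ≠ 0 := pow_ne_zero _ (norm_ne_zero_iff.2 h)

theorem dd_log {v : Cm k → ℝ} {e : Cm k → ℂ} (hv : ContDiffAt ℝ 2 v y) (h0 : v y ≠ 0)
    (he : AnalyticAt ℂ e y) (h1 : e y ≠ 0) :
    dd (fun x => Real.log (v x * ‖e x‖ ^ 2)) y = dd (fun x => Real.log (v x)) y := by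
  have e1 : (fun x => Real.log (v x * ‖e x‖ ^ 2)) =ᶠ[𝓝 y]
      fun x => Real.log (v x) + Real.log (‖e x‖ ^ 2) := by
    filter_upwards [hv.continuousAt.eventually_ne h0, he.continuousAt.eventually_ne h1] with x a b
    exact Real.log_mul a (nsq_ne b)
  rw [chn.ddc _ _ y e1, (chn.dda _ _ y (hv.log h0) ((cd_nsq he).log (nsq_ne h1))).1,
    chn.ddh _ y he h1, add_zero]

/-- The generic form from a local expression of the metric. -/
theorem gf_of (hh : IsPsi h) (hC : C.IsStable) (hs : HolAt C σ y) {z : C.X → ℂ}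
    (h1 : C.hol z (mk C (σ y) o)) (h2 : Co C z (mk C (σ y) o)) {v : Cm k → ℝ} {e : Cm k → ℂ}
    (hv : ContDiffAt ℝ 2 v y) (h0 : v y ≠ 0) (he : AnalyticAt ℂ e y) (h3 : e y ≠ 0)
    (hq : ∀ᶠ x in 𝓝 y, H h C (σ x) o z = v x * ‖e x‖ ^ 2) :
    gf h C σ o y = -dd (fun x => Real.log (v x)) y := by
  obtain ⟨k3, k4⟩ := cz_spec hC (k2.csp hC h2)
  rw [gf]
  generalize cz C (mk C (σ y) o) = w at k3 k4 ⊢
  obtain ⟨c, hc, hd⟩ := k2.drh hC h1 h2 k3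
  have ha := (hs.mk hC o).2 c hc
  have h4 : c (mk C (σ y) o) ≠ 0 := dr_ne hC h2 k4 hd.self_of_nhds
  rw [← dd_log hv h0 (he.mul ha) (mul_ne_zero h3 h4)]
  refine congrArg _ (chn.ddc _ _ y ?_)
  filter_upwards [ev_co hC hs h1 h2, ev_co hC hs k3 k4, (hs.mk hC o).1.eventually hd, hq]
    with x a1 a2 a3 a4
  rw [H_fr hh hC a2.2 a1.2 a3, a4, Pi.mul_apply, norm_mul]
  exact congrArg _ (by ring)

/-- `v` is a local expression of the metric at `y`, up to the square of a holomorphic function. -/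
def Dat (h : Hm (Option L)) (C : Fam L m) (σ : Cm k → C.X) (o : Option L) (y : Cm k)
    (v : Cm k → ℝ) : Prop := ContDiffAt ℝ ∞ v y ∧ 0 < v y ∧ ∃ (z : C.X → ℂ) (e : Cm k → ℂ),
  AnalyticAt ℂ e y ∧ ∀ᶠ x in 𝓝 y, Gen C (σ x) → Sm C (C.π (σ x)) →
    C.hol z (mk C (σ x) o) ∧ Co C z (mk C (σ x) o) ∧ e x ≠ 0 ∧ H h C (σ x) o z = v x * ‖e x‖ ^ 2

theorem Dat.loc [Finite L] {v : Cm k → ℝ} (hd : Dat h C σ o y v) (hh : IsPsi h) (hC : C.IsStable)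
    (hs : HolAt C σ y) : ∀ᶠ x in 𝓝 y, Gen C (σ x) ∧ Sm C (C.π (σ x)) →
      gf h C σ o x = -dd (fun x => Real.log (v x)) x := by
  obtain ⟨h1, h2, z, e, h3, h4⟩ := hd
  filter_upwards [hs.ev hC, ev_two h1, h1.continuousAt.eventually_ne h2.ne',
    h3.eventually_analyticAt, h4.eventually_nhds] with x a1 a2 a3 a4 a5 a6
  obtain ⟨b1, b2, b3, -⟩ := a5.self_of_nhds a6.1 a6.2
  refine gf_of hh hC a1 b1 b2 a2 a3 a4 b3 ?_
  filter_upwards [a5, ev_gen hC a1 a6.1, ev_sm hC a1 a6.2] with x' c1 c2 c3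
  exact (c1 c2 c3).2.2.2

theorem ex_dat [Finite L] (t2 : T2) (hh : IsPsi h) (hC : C.IsStable) (hs : HolAt C σ y)
    (o : Option L) : ∃ v, Dat h C σ o y v := by
  obtain ⟨z, e, v, h1, h2, h3, h4⟩ := t2.all hh hC (hs.ev hC) o
  exact ⟨v, h1, h2, z, e, h3, h4⟩

/-- The ratio does not depend on the coordinate. -/
theorem rat_eq {h' : Hm L} (hh : IsPsi h) (hh' : IsPsi h') (hC : C.IsStable)
    (hC' : C'.IsStable) (hΦ : Is C (C.π p) C' b' Φ) (i : L) {z : C'.X → ℂ}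
    (h2 : Co C' z (mk C' (Φ p) (some i))) :
    rat h h' C i p = H h C' (Φ p) (some i) z / h' m' C' (C'.π (Φ p)) i z := by
  obtain ⟨k3, k4⟩ := cz_spec hC (P269CT.sp_s hC (hC.2.2.1 p) i)
  rw [rat]
  generalize cz C (C.s i (C.π p)) = w at k3 k4 ⊢
  have h3 := is_co hC hC' hΦ h2
  obtain ⟨c, hc⟩ := dr_exists hC h3 k4.1
  have h4 := is_π hΦ
  subst h4
  rw [H_nat (o := some i) hh hC hΦ k4 h2 hc, hh'.1 m m' C C' _ _ _ hΦ i w (fun q => z (Φ q)) z c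
    (π_s hC (hC.2.2.1 p)) k4 h2 (fun _ => rfl) hc,
    mul_div_mul_left _ _ (nsq_ne (dr_ne hC h3 k4 hc))]

end Vale.Agent.P269CZ
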